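import Vale.Agent.P370Z.ZOSC.Half

/-!
# P370, block ZOSC: the oscillator band
-/

namespace Vale.Agent.P370Z

open MeasureTheory Finset

namespace ZOSC

noncomputable section

/-- the values of the cut-off -/
def cv (n : ℕ) (i : ℤ) : ℝ := if -(n : ℤ) ≤ i ∧ i ≤ n then 1 else 0

theorem cv_abs (n : ℕ) (i : ℤ) : |cv n i| ≤ 1 := by unfold cv; split_ifs <;> simp

theorem cv_in {n : ℕ} {z : ℝ} (h : |z| ≤ n) : levD 0 (cv n) z = 1 :=
  levD_zero_const_on (A := -(n : ℤ)) (B := n) (fun _ a b => if_pos ⟨a, b⟩)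
    (by simpa using (abs_le.1 h).1) (by simpa using (abs_le.1 h).2)

theorem cv_in' {n k : ℕ} (h1 : 1 ≤ k) (hk : k ≤ 8) {z : ℝ} (h : |z| ≤ n) : levD k (cv n) z = 0 :=
  levD_const_on h1 hk (A := -(n : ℤ)) (B := n) (a := 1) (fun _ a b => if_pos ⟨a, b⟩)
    (by simpa using (abs_le.1 h).1) (by simpa using (abs_le.1 h).2)

theorem cv_out {n k : ℕ} (hk : k ≤ 8) {z : ℝ} (h : (n : ℝ) + 1 ≤ |z|) : levD k (cv n) z = 0 := by
  rcases le_abs.1 h with h | h
  · rw [levD_congr_ge (g := cv n) (g' := fun _ => 0) (A := n + 1) hk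
      (fun i hi => if_neg (by omega)) (by simpa using h), levD_const]
    simp
  · rw [levD_congr_le (g := cv n) (g' := fun _ => 0) (B := -(n + 1)) hk
      (fun i hi => if_neg (by omega)) (by push_cast; linarith), levD_const]
    simp

theorem cv_supp {n : ℕ} {z : ℝ} (h : levD 0 (cv n) z ≠ 0) : |z| ≤ n + 1 := by
  by_contra h'
  exact h (cv_out (by omega) (not_le.1 h').le)

theorem cv_bd (n k : ℕ) (z : ℝ) : |levD k (cv n) z| ≤ 2 * betaB := by
  simpa using abs_levD_le k (cv_abs n) z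

theorem cv_c1c (n : ℕ) : C1c (levD 0 (cv n)) := by
  refine ⟨(bd_levD_bounded (n := 0) (k := 1) (by omega) (cv_abs n)).contDiff_one, ?_⟩
  refine HasCompactSupport.intro (isCompact_Icc (a := -((n : ℝ) + 1)) (b := n + 1)) fun z hz => ?_
  by_contra h
  exact hz (abs_le.1 (cv_supp h))

theorem bd_lin {ω : ℝ} (hω : 0 ≤ ω) (k : ℕ) : Bd k ω (fun z => 1 + |z|) fun z => ω * z := by
  have hb : ∀ z : ℝ, |ω * z| ≤ ω * (1 + |z|) := fun z => by
    rw [abs_mul, abs_of_nonneg hω]; nlinarith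
  cases k with
  | zero => exact ⟨by fun_prop, hb⟩
  | succ k =>
    refine Bd.of_hasDerivAt (f' := fun _ => ω)
      (fun z => by simpa using (hasDerivAt_id z).const_mul ω) hb ((Bd.const ω).mono fun z => ?_)
    rw [abs_of_nonneg hω]; nlinarith [abs_nonneg z]

theorem bd_gs_aux {ω : ℝ} (hω : 0 ≤ ω) (k : ℕ) :
    ∃ C, 1 ≤ C ∧ Bd k C (fun z => (1 + |z|) ^ k * gs ω z) (gs ω) := by
  induction k with
  | zero =>
    exact ⟨1, le_rfl, (contDiff_gs ω).continuous, fun z => by simp [abs_of_pos (gs_pos ω z)]⟩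
  | succ k ih =>
    obtain ⟨C, hC, h⟩ := ih
    have hp : 0 ≤ 2 ^ k * ω * C := by positivity
    refine ⟨2 ^ k * ω * C + 1, by linarith, Bd.of_hasDerivAt (hasDerivAt_gs ω) (fun z => ?_)
      ((((bd_lin hω k).mul h).neg).mono fun z => ?_)⟩
    · have h1 : 1 ≤ (1 + |z|) ^ (k + 1) := one_le_pow₀ (by linarith [abs_nonneg z])
      rw [abs_of_pos (gs_pos ω z), ← mul_assoc]
      exact le_mul_of_one_le_left (gs_pos ω z).le
        (one_le_mul_of_one_le_of_one_le (by linarith) h1)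
    · have := gs_pos ω z
      rw [← mul_assoc (1 + |z|), ← pow_succ']
      gcongr
      linarith

theorem bd_gs {ω : ℝ} (hω : 1 ≤ ω) : ∃ C, 1 ≤ C ∧ Bd 4 C (fun _ => 1) (gs ω) := by
  obtain ⟨C, hC, h⟩ := bd_gs_aux (by linarith : 0 ≤ ω) 4
  have h8 : 1 ≤ Real.exp 8 := Real.one_le_exp (by norm_num)
  refine ⟨C * Real.exp 8, one_le_mul_of_one_le_of_one_le hC h8, h.mono fun z => ?_⟩
  rw [mul_one]
  refine mul_le_mul_of_nonneg_left ?_ (by linarith)
  have h1 : (1 + |z|) ^ 4 ≤ Real.exp |z| ^ 4 :=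
    pow_le_pow_left₀ (by positivity) (by linarith [Real.add_one_le_exp |z|]) 4
  refine (mul_le_mul_of_nonneg_right h1 (gs_pos ω z).le).trans ?_
  rw [gs, ← Real.exp_nat_mul, ← Real.exp_add, Real.exp_le_exp, ← sq_abs z]
  push_cast
  nlinarith [sq_nonneg (|z| - 4), mul_le_mul_of_nonneg_right hω (sq_nonneg |z|)]

/-- the truncated ground state -/
def tr (ω : ℝ) (n : ℕ) (z : ℝ) : ℝ := gs ω z * levD 0 (cv n) z

theorem tr_c1c (ω : ℝ) (n : ℕ) : C1c (tr ω n) :=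
  ⟨(contDiff_gs ω).mul (cv_c1c n).1, (cv_c1c n).2.mul_left (f := gs ω)⟩

theorem tr_norm {ω : ℝ} (hω : 0 ≤ ω) {n : ℕ} (hn : 1 ≤ n) :
    Real.exp (-ω) ≤ ∫ z, tr ω n z ^ 2 := by
  have hc := (tr_c1c ω n).1.continuous
  have hi : Integrable fun z => tr ω n z ^ 2 :=
    integ (tr_c1c ω n) (by fun_prop) fun z h _ => by simp [h]
  have h1 : ∫ _ in Set.Icc (0 : ℝ) 1, Real.exp (-ω) ≤ ∫ z in Set.Icc (0 : ℝ) 1, tr ω n z ^ 2 := by
    refine setIntegral_mono_on (integrableOn_const (by simp)) hi.integrableOn measurableSet_Icc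
      fun z hz => ?_
    have hn' : (1 : ℝ) ≤ n := by exact_mod_cast hn
    rw [tr, cv_in (by rw [abs_of_nonneg hz.1]; linarith [hz.2]), mul_one, gs, ← Real.exp_nat_mul,
      Real.exp_le_exp]
    have : z ^ 2 ≤ 1 := pow_le_one₀ hz.1 hz.2
    push_cast
    nlinarith
  have h2 := setIntegral_le_integral (s := Set.Icc (0 : ℝ) 1) hi
    (Filter.Eventually.of_forall fun z => sq_nonneg _)
  simp only [integral_const, MeasurableSet.univ, measureReal_restrict_apply, Set.univ_inter,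
    Real.volume_real_Icc, sub_zero, zero_le_one, sup_of_le_left, smul_eq_mul, one_mul] at h1
  exact h1.trans h2

theorem res_tr (a ω : ℝ) (n : ℕ) (z : ℝ) :
    res1 (fun z => ω ^ 2 * z ^ 2 / 2 - ω / 2) (fun z => a * tr ω n z) z =
      a * (gs ω z * (ω * z * levD 1 (cv n) z - levD 2 (cv n) z / 2)) := by
  have h0 := hasDerivAt_levD (n := 0) (by omega) (cv n)
  have h1 := hasDerivAt_levD (n := 1) (by omega) (cv n)
  have d1 : deriv (fun z => a * tr ω n z) =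
      fun z => a * (-(ω * z * gs ω z) * levD 0 (cv n) z + gs ω z * levD 1 (cv n) z) :=
    funext fun z => (((hasDerivAt_gs ω z).fun_mul (h0 z)).const_mul a).deriv
  have hl : HasDerivAt (fun z => ω * z) ω z := by simpa using (hasDerivAt_id z).const_mul ω
  have d2 := (((((hl.fun_mul (hasDerivAt_gs ω z)).fun_neg).fun_mul (h0 z)).fun_add
    ((hasDerivAt_gs ω z).fun_mul (h1 z))).const_mul a).deriv
  rw [res1, d1, d2, tr]
  ring

theorem res_le {ω : ℝ} (hω : 1 ≤ ω) (n : ℕ) (z : ℝ) :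
    |gs ω z * (ω * z * levD 1 (cv n) z - levD 2 (cv n) z / 2)| ≤
      3 * betaB * ω * Real.exp 2 * (1 / 2) ^ n := by
  have hB := betaB_pos
  rcases le_total |z| n with h | h
  · rw [cv_in' le_rfl (by omega) h, cv_in' (by omega) (by omega) h]
    simp only [mul_zero, zero_div, sub_zero, abs_zero]
    positivity
  have a1 := cv_bd n 1 z
  have a2 := cv_bd n 2 z
  have a3 : |ω * z * levD 1 (cv n) z - levD 2 (cv n) z / 2| ≤ 3 * betaB * ω * (1 + |z|) := by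
    refine (abs_sub _ _).trans ?_
    rw [abs_mul, abs_mul, abs_div, abs_of_pos (by linarith : 0 < ω), abs_two]
    have : ω * |z| * |levD 1 (cv n) z| ≤ ω * |z| * (2 * betaB) := by gcongr
    nlinarith [abs_nonneg z, mul_nonneg (mul_nonneg hB.le (by linarith : 0 ≤ ω)) (abs_nonneg z),
      mul_le_mul_of_nonneg_left hω hB.le]
  have a4 : gs ω z * (1 + |z|) ≤ Real.exp 2 * (1 / 2) ^ n := by
    have b1 : 1 + |z| ≤ Real.exp |z| := by linarith [Real.add_one_le_exp |z|]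
    refine (mul_le_mul_of_nonneg_left b1 (gs_pos ω z).le).trans
      (le_trans ?_ (mul_le_mul_of_nonneg_left (half_pow n) (Real.exp_pos _).le))
    rw [gs, ← Real.exp_add, ← Real.exp_add, Real.exp_le_exp, ← sq_abs z]
    nlinarith [sq_nonneg (|z| - 2), mul_le_mul_of_nonneg_right hω (sq_nonneg |z|)]
  rw [abs_mul, abs_of_pos (gs_pos ω z)]
  calc _ ≤ gs ω z * (3 * betaB * ω * (1 + |z|)) := mul_le_mul_of_nonneg_left a3 (gs_pos ω z).le
    _ = 3 * betaB * ω * (gs ω z * (1 + |z|)) := by ring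
    _ ≤ 3 * betaB * ω * (Real.exp 2 * (1 / 2) ^ n) := by gcongr
    _ = _ := by ring

theorem split {F : ℝ → ℝ} (hF : Integrable F) :
    ∫ z, F z = (∫ z in Set.Ioi (0 : ℝ), F z) + ∫ z in Set.Ioi (0 : ℝ), F (-z) := by
  rw [integral_comp_neg_Ioi, neg_zero, add_comm,
    intervalIntegral.integral_Iic_add_Ioi hF.integrableOn hF.integrableOn]

theorem c1c_neg {g : ℝ → ℝ} (hg : C1c g) : C1c fun z => g (-z) :=
  ⟨hg.1.comp contDiff_neg, hg.2.comp_homeomorph (Homeomorph.neg ℝ)⟩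

theorem full {ω L : ℝ} {n : ℕ} {u g : ℝ → ℝ} (hω : 1 ≤ ω) (hn : 1 ≤ n) (hL : (n : ℝ) + 1 ≤ L)
    (hu : Measurable u) (hb : ∃ M, ∀ z, |u z| ≤ M)
    (h1 : ∀ z, |z| ≤ 2 * L → u z = ω ^ 2 * z ^ 2 / 2 - ω / 2) (h2 : ∀ z, L ≤ |z| → 1 ≤ u z)
    (hg : C1c g) :
    0 ≤ (∫ z, ((1 / 2) * deriv g z ^ 2 + u z * g z ^ 2)) + 8 * betaB ^ 2 / L ^ 2 * ∫ z, g z ^ 2 ∧
    1 / 16 * ∫ z, (g z - g 0 * tr ω n z) ^ 2 ≤
      4 * (∫ z, ((1 / 2) * deriv g z ^ 2 + u z * g z ^ 2)) + 32 * betaB ^ 2 / L ^ 2 * (∫ z, g z ^ 2)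
        + 48 * betaB ^ 2 * (1 / 2) ^ n * g 0 ^ 2 := by
  have hn' : (1 : ℝ) ≤ n := by exact_mod_cast hn
  have hL2 : 2 ≤ L := by linarith
  have hc := hg.1.continuous
  have hu' : Measurable fun z => u (-z) := hu.comp measurable_neg
  have hb' : ∃ M, ∀ z, |u (-z)| ≤ M := by obtain ⟨M, hM⟩ := hb; exact ⟨M, fun z => hM _⟩
  have h1' : ∀ z, |z| ≤ 2 * L → u (-z) = ω ^ 2 * z ^ 2 / 2 - ω / 2 := fun z hz => by
    rw [h1 (-z) (by rwa [abs_neg]), neg_sq]
  have h2' : ∀ z, L ≤ |z| → 1 ≤ u (-z) := fun z hz => h2 (-z) (by rwa [abs_neg])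
  have hg' := c1c_neg hg
  have eQ : ∫ z, ((1 / 2) * deriv g z ^ 2 + u z * g z ^ 2) =
      Qp u g + Qp (fun z => u (-z)) (fun z => g (-z)) := by
    rw [split (integ_Q hu hb hg), Qp, Qp]
    simp only [deriv_comp_neg, neg_sq]
  have eN := split (integ hg (F := fun z => g z ^ 2) (by fun_prop) fun z h _ => by simp [h])
  have hG : C1c fun z => g z - g 0 * tr ω n z :=
    ⟨hg.1.sub (contDiff_const.mul (tr_c1c ω n).1),
      hg.2.sub ((tr_c1c ω n).2.mul_left (f := fun _ => g 0))⟩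
  have hGc := hG.1.continuous
  have eG := split (integ hG (F := fun z => (g z - g 0 * tr ω n z) ^ 2) (by fun_prop)
    fun z h _ => by simp only [h]; simp)
  have l1 := le_trans (integral_nonneg fun z => sq_nonneg _) (half_low hω hL2 hu hb h1 h2 hg)
  have l2 := le_trans (integral_nonneg fun z => sq_nonneg _) (half_low hω hL2 hu' hb' h1' h2' hg')
  have hd : deriv (levD 0 (cv n)) = levD 1 (cv n) := deriv_levD (by omega) _
  have key : ∀ z : ℝ, levD 1 (cv n) z ≠ 0 → (n : ℝ) ≤ |z| := fun z h => by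
    by_contra h'
    exact h (cv_in' le_rfl (by omega) (not_le.1 h').le)
  have g1 := half_gap (M := 2 * betaB) (n := n) hω hL2 hu hb h1 h2 hg (cv_c1c n)
    (cv_in (by simp)) (fun z h => ((le_abs_self z).trans (cv_supp h)).trans hL)
    (fun z => by rw [hd]; exact cv_bd n 1 z)
    (fun z hz h => by rw [hd] at h; simpa [abs_of_pos hz] using key z h)
  have g2 := half_gap (M := 2 * betaB) (n := n) hω hL2 hu' hb' h1' h2' hg' (c1c_neg (cv_c1c n))
    (by simpa using cv_in (n := n) (z := 0) (by simp))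
    (fun z h => ((le_abs_self z).trans (by simpa using cv_supp h)).trans hL)
    (fun z => by rw [deriv_comp_neg, hd, abs_neg]; exact cv_bd n 1 _)
    (fun z hz h => by
      rw [deriv_comp_neg, hd, neg_ne_zero] at h
      simpa [abs_of_pos hz] using key _ h)
  have e5 : ∀ z, tr ω n (-z) = gs ω z * levD 0 (cv n) (-z) := fun z => by simp [tr, gs]
  simp only [neg_zero] at g2
  simp only [e5] at eG
  simp only [tr] at eG ⊢
  rw [eQ, eN, eG]
  have e8 : 16 * betaB ^ 2 / L ^ 2 = 2 * (8 * betaB ^ 2 / L ^ 2) := by ring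
  rw [e8] at l1 l2
  constructor
  · linarith
  · linarith

theorem arith {B E C h g0 g2 G2 G3 P Q N a K : ℝ} (hB : 0 ≤ B) (hE : 0 ≤ E) (hh : 0 ≤ h)
    (hK : 0 ≤ K) (k1 : 128 * B * E ≤ C) (k2 : 128 * B ≤ C) (k3 : 128 ≤ C) (hNE : 1 ≤ E * N)
    (ha2 : a ^ 2 * N = 1) (p1 : 0 ≤ G2) (p2 : 0 ≤ G3) (p3 : 0 ≤ g2)
    (eG : G2 = g2 - 2 * g0 * P + g0 ^ 2 * N) (eG' : G3 = 2 ^ 2 * g2 - 2 * 2 * g0 * P + g0 ^ 2 * N)
    (f1 : 0 ≤ Q + 8 * B * K * g2)
    (f2 : 1 / 16 * G2 ≤ 4 * Q + 32 * B * K * g2 + 48 * B * h * g0 ^ 2) :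
    1 / C * (g2 - (a * P) ^ 2) - (C * K + C * h) * g2 ≤ Q := by
  have q1 : g2 - (a * P) ^ 2 ≤ G2 := by
    have : 0 ≤ (a * P - a * g0 * N) ^ 2 := sq_nonneg _
    have e : (a * P - a * g0 * N) ^ 2 =
        (a * P) ^ 2 - 2 * g0 * P * (a ^ 2 * N) + g0 ^ 2 * N * (a ^ 2 * N) := by ring
    rw [e, ha2] at this
    linarith
  have q2 : g0 ^ 2 ≤ E * (2 * g2 + 2 * G2) := by
    have : g0 ^ 2 * N ≤ 2 * g2 + 2 * G2 := by linarith
    calc g0 ^ 2 ≤ g0 ^ 2 * (E * N) := le_mul_of_one_le_right (sq_nonneg _) hNE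
      _ = E * (g0 ^ 2 * N) := by ring
      _ ≤ _ := mul_le_mul_of_nonneg_left this hE
  have q3 : 1 / C ≤ 1 / 128 := one_div_le_one_div_of_le (by norm_num) k3
  have q4 : 0 < 1 / C := one_div_pos.2 (by linarith)
  have q5 : 8 * B * K * g2 ≤ C * K * g2 := by gcongr; linarith
  obtain ⟨ε, hε⟩ : ∃ ε, ε = 96 * B * E * h := ⟨_, rfl⟩
  have q6 : ε ≤ C * h := by
    rw [hε]; gcongr; linarith [mul_nonneg hB hE]
  have q7 : 48 * B * h * g0 ^ 2 ≤ ε * g2 + ε * G2 := by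
    calc _ ≤ 48 * B * h * (E * (2 * g2 + 2 * G2)) := by gcongr
      _ = _ := by rw [hε]; ring
  have q8 : ε * g2 ≤ C * h * g2 := by gcongr
  have q9 : 0 ≤ ε * g2 := by rw [hε]; positivity
  rw [add_mul]
  rcases le_total ε (1 / 32) with h | h
  · have r1 : ε * G2 ≤ 1 / 32 * G2 := by gcongr
    have r2 : 1 / C * (g2 - (a * P) ^ 2) ≤ 1 / 128 * G2 :=
      (mul_le_mul_of_nonneg_left q1 q4.le).trans (mul_le_mul_of_nonneg_right q3 p1)
    linarith
  · have r1 : 1 / 32 * g2 ≤ ε * g2 := by gcongr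
    have r2 : 1 / C * (g2 - (a * P) ^ 2) ≤ 1 / 128 * g2 :=
      (mul_le_mul_of_nonneg_left (sub_le_self _ (sq_nonneg _)) q4.le).trans
        (mul_le_mul_of_nonneg_right q3 p3)
    linarith

theorem gap {ω L C a : ℝ} {n : ℕ} {u g : ℝ → ℝ} (hω : 1 ≤ ω) (hn : 1 ≤ n) (hL : (n : ℝ) + 1 ≤ L)
    (k1 : 128 * betaB ^ 2 * Real.exp ω ≤ C) (k2 : 128 * betaB ^ 2 ≤ C) (k3 : 128 ≤ C)
    (hNE : 1 ≤ Real.exp ω * ∫ z, tr ω n z ^ 2) (ha2 : a ^ 2 * ∫ z, tr ω n z ^ 2 = 1)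
    (hu : Measurable u) (hb : ∃ M, ∀ z, |u z| ≤ M)
    (h1 : ∀ z, |z| ≤ 2 * L → u z = ω ^ 2 * z ^ 2 / 2 - ω / 2) (h2 : ∀ z, L ≤ |z| → 1 ≤ u z)
    (hg : C1c g) :
    1 / C * ((∫ z, g z ^ 2) - (∫ z, a * tr ω n z * g z) ^ 2) -
      (C / L ^ 2 + C * (1 / 2) ^ n) * ∫ z, g z ^ 2 ≤
      ∫ z, ((1 / 2) * deriv g z ^ 2 + u z * g z ^ 2) := by
  obtain ⟨f1, f2⟩ := full hω hn hL hu hb h1 h2 hg
  have htc := (tr_c1c ω n).1.continuous
  have hc := hg.1.continuous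
  have i1 : Integrable fun z => g z ^ 2 := integ hg (by fun_prop) fun z h _ => by simp [h]
  have i2 : Integrable fun z => tr ω n z ^ 2 :=
    integ (tr_c1c ω n) (by fun_prop) fun z h _ => by simp [h]
  have i3 : Integrable fun z => tr ω n z * g z := integ hg (by fun_prop) fun z h _ => by simp [h]
  have eH : ∀ k : ℝ, ∫ z, (k * g z - g 0 * tr ω n z) ^ 2 =
      k ^ 2 * (∫ z, g z ^ 2) - 2 * k * g 0 * (∫ z, tr ω n z * g z) +
        g 0 ^ 2 * ∫ z, tr ω n z ^ 2 := fun k => by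
    have j1 : Integrable fun z => k ^ 2 * g z ^ 2 - 2 * k * g 0 * (tr ω n z * g z) :=
      (i1.const_mul _).sub (i3.const_mul _)
    rw [← integral_const_mul, ← integral_const_mul, ← integral_const_mul,
      ← integral_sub (i1.const_mul _) (i3.const_mul _), ← integral_add j1 (i2.const_mul _)]
    exact integral_congr_ae (Filter.Eventually.of_forall fun z => by ring)
  have eG := eH 1
  simp only [one_mul, one_pow, mul_one] at eG
  have eP : ∫ z, a * tr ω n z * g z = a * ∫ z, tr ω n z * g z := by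
    rw [← integral_const_mul]
    exact integral_congr_ae (Filter.Eventually.of_forall fun z => by ring)
  rw [eP, div_eq_mul_inv C]
  rw [div_eq_mul_inv] at f1
  rw [div_eq_mul_inv (32 * betaB ^ 2)] at f2
  exact arith (by positivity) (by positivity) (by positivity) (by positivity) k1 k2 k3 hNE ha2
    (integral_nonneg fun z => sq_nonneg _) (integral_nonneg fun z => sq_nonneg _)
    (integral_nonneg fun z => sq_nonneg _) eG (eH 2) f1 f2

end

end ZOSC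

open ZOSC in
theorem zosc (ω : ℝ) (hω : 1 ≤ ω) : ∃ C : ℝ, 1 ≤ C ∧ ∀ (z0 : ℕ) (L1 : ℝ), 1 ≤ z0 →
    (z0 : ℝ) + 1 ≤ L1 → ∃ e : ℝ → ℝ,
      ZBand ω z0 L1 e C (1 / C) (C * (1 / 2) ^ z0) (C / L1 ^ 2 + C * (1 / 2) ^ z0) := by
  obtain ⟨C0, hC0, hgs⟩ := bd_gs hω
  have hB := one_le_betaB
  have hE : 1 ≤ Real.exp ω := Real.one_le_exp (by linarith)
  have hE2 : 1 ≤ Real.exp 2 := Real.one_le_exp (by norm_num)
  obtain ⟨C, hC⟩ : ∃ C : ℝ, C = 128 * betaB ^ 2 * C0 * ω * Real.exp 2 * Real.exp ω := ⟨_, rfl⟩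
  have hB2 : betaB ≤ betaB ^ 2 := le_self_pow₀ hB two_ne_zero
  have k1 : 128 * betaB ^ 2 * Real.exp ω ≤ C := by
    have : 1 ≤ C0 * ω * Real.exp 2 :=
      one_le_mul_of_one_le_of_one_le (one_le_mul_of_one_le_of_one_le hC0 hω) hE2
    calc _ ≤ 128 * betaB ^ 2 * Real.exp ω * (C0 * ω * Real.exp 2) :=
          le_mul_of_one_le_right (by positivity) this
      _ = C := by rw [hC]; ring
  have k2 : 128 * betaB ^ 2 ≤ C := (le_mul_of_one_le_right (by positivity) hE).trans k1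
  have k3 : 128 ≤ C := by linarith
  refine ⟨C, by linarith, fun n L hn hL => ?_⟩
  have hN := tr_norm (by linarith : 0 ≤ ω) hn
  obtain ⟨N, hNdef⟩ : ∃ N : ℝ, N = ∫ z, tr ω n z ^ 2 := ⟨_, rfl⟩
  rw [← hNdef] at hN
  have hN0 : 0 < N := (Real.exp_pos _).trans_le hN
  have hNE : 1 ≤ Real.exp ω * N := by
    calc (1 : ℝ) = Real.exp ω * Real.exp (-ω) := by rw [← Real.exp_add]; simp
      _ ≤ _ := by gcongr
  obtain ⟨a, ha⟩ : ∃ a : ℝ, a = (√N)⁻¹ := ⟨_, rfl⟩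
  have ha0 : 0 < a := ha ▸ inv_pos.2 (Real.sqrt_pos.2 hN0)
  have ha2 : a ^ 2 * N = 1 := by
    rw [ha, inv_pow, Real.sq_sqrt hN0.le]; exact inv_mul_cancel₀ hN0.ne'
  have ha3 : a ≤ Real.exp ω := by
    refine le_of_sq_le_sq (le_trans ?_ (le_self_pow₀ hE two_ne_zero)) (by linarith)
    calc a ^ 2 ≤ a ^ 2 * (Real.exp ω * N) := le_mul_of_one_le_right (sq_nonneg _) hNE
      _ = Real.exp ω * (a ^ 2 * N) := by ring
      _ = _ := by rw [ha2, mul_one]
  refine ⟨fun z => a * tr ω n z, ?_, ?_, ?_, ?_, ?_⟩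
  · refine ((hgs.mul (bd_levD_bounded (n := 0) (k := 4) (by omega) (cv_abs n))).const_mul a).mono
      fun z => ?_
    rw [abs_of_pos ha0]
    calc _ = 32 * betaB * C0 * 1 * 1 * a := by ring
      _ ≤ 128 * betaB ^ 2 * C0 * ω * Real.exp 2 * Real.exp ω := by gcongr; norm_num
      _ = _ := by rw [hC]; ring
  · intro z hz
    exact cv_supp (right_ne_zero_of_mul (right_ne_zero_of_mul hz))
  · rw [← ha2, hNdef, ← integral_const_mul]
    exact integral_congr_ae (Filter.Eventually.of_forall fun z => by ring)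
  · intro z
    rw [res_tr, abs_mul, abs_of_pos ha0]
    calc _ ≤ a * (3 * betaB * ω * Real.exp 2 * (1 / 2) ^ n) :=
          mul_le_mul_of_nonneg_left (res_le hω n z) ha0.le
      _ = 3 * betaB * 1 * ω * Real.exp 2 * a * (1 / 2) ^ n := by ring
      _ ≤ C * (1 / 2) ^ n := by rw [hC]; gcongr; norm_num
  · intro u hu hb h1 h2 g hg
    exact gap hω hn hL k1 k2 k3 (hNdef ▸ hNE) (hNdef ▸ ha2) hu hb h1 h2 hg

end Vale.Agent.P370Z
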