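import Vale.Agent.P370Z.SM.Bd

/-!
# P370, block ZOSC: the oscillator on a half line
-/

namespace Vale.Agent.P370Z.ZOSC

open MeasureTheory Set

noncomputable section

variable {g G F : ℝ → ℝ}

theorem cont_deriv (hG : C1c G) : Continuous (deriv G) := hG.1.continuous_deriv le_rfl

theorem hda (hG : C1c G) (z : ℝ) : HasDerivAt G (deriv G z) z :=
  (hG.1.differentiable one_ne_zero z).hasDerivAt

theorem cpt (hG : C1c G) (h : ∀ z, G z = 0 → deriv G z = 0 → F z = 0) : HasCompactSupport F := by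
  refine HasCompactSupport.intro hG.2 fun z hz => h z (image_eq_zero_of_notMem_tsupport hz) ?_
  have := notMem_tsupport_iff_eventuallyEq.1 hz
  rw [this.deriv_eq]
  exact deriv_const z 0

theorem integ (hG : C1c G) (hF : Continuous F) (h : ∀ z, G z = 0 → deriv G z = 0 → F z = 0) :
    Integrable F := hF.integrable_of_hasCompactSupport (cpt hG h)

theorem riccati {a a' : ℝ → ℝ} (ha : ∀ z, HasDerivAt a (a' z) z) (ha' : Continuous a')
    (hG : C1c G) : ∫ z in Ioi (0 : ℝ), (deriv G z + a z * G z) ^ 2 =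
      (∫ z in Ioi (0 : ℝ), (deriv G z ^ 2 + (a z ^ 2 - a' z) * G z ^ 2)) - a 0 * G 0 ^ 2 := by
  have hac : Continuous a := continuous_iff_continuousAt.2 fun z => (ha z).continuousAt
  have hc := hG.1.continuous
  have hd := cont_deriv hG
  have ha1 : ContDiff ℝ 1 a := by
    rw [contDiff_one_iff_deriv]
    exact ⟨fun z => (ha z).differentiableAt, by
      rwa [show deriv a = a' from funext fun z => (ha z).deriv]⟩
  have h1 : ContDiff ℝ 1 fun z => a z * G z ^ 2 := ha1.mul (hG.1.pow 2)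
  have h2 : HasCompactSupport fun z => a z * G z ^ 2 := cpt hG fun z h _ => by simp [h]
  have h3 := HasCompactSupport.integral_Ioi_deriv_eq h1 h2 0
  have h4 : deriv (fun z => a z * G z ^ 2) =
      fun z => a' z * G z ^ 2 + a z * (2 * G z * deriv G z) := by
    funext z
    have := (ha z).fun_mul ((hda hG z).fun_pow 2)
    simpa using this.deriv
  rw [h4] at h3
  rw [sub_eq_add_neg, ← h3, ← integral_add]
  · exact integral_congr_ae (Filter.Eventually.of_forall fun z => by ring)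
  · exact (integ hG (by fun_prop) fun z h h' => by simp [h, h']).integrableOn
  · exact (integ hG (by fun_prop) fun z h h' => by simp [h]).integrableOn

/-- A Hardy type inequality. -/
theorem hardy {w w' : ℝ → ℝ} (hw : ∀ z, HasDerivAt w (w' z) z) (hw' : Continuous w')
    (hlo : ∀ z, 0 ≤ z → min z 1 ≤ w z) (hG : C1c G) (h0 : G 0 = 0) :
    1 / 16 * ∫ z in Ioi (0 : ℝ), G z ^ 2 ≤ ∫ z in Ioi (0 : ℝ), (deriv G z + w z * G z) ^ 2 := by
  have hwc : Continuous w := continuous_iff_continuousAt.2 fun z => (hw z).continuousAt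
  have hc := hG.1.continuous
  have hd := cont_deriv hG
  have hm : ∀ z : ℝ, HasDerivAt (fun z => w z - 1 / 8 * (1 + Real.exp (-z)))
      (w' z + 1 / 8 * Real.exp (-z)) z := fun z => by
    have := (hw z).sub ((((hasDerivAt_neg z).exp).const_add 1).const_mul (1 / 8))
    exact HasDerivAt.congr_deriv this (by ring)
  have e1 := riccati hw hw' hG
  have e2 := riccati hm (by fun_prop) hG
  have e3 : 0 ≤ ∫ z in Ioi (0 : ℝ), (deriv G z + (w z - 1 / 8 * (1 + Real.exp (-z))) * G z) ^ 2 :=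
    integral_nonneg fun z => sq_nonneg _
  rw [e2] at e3
  rw [e1, ← integral_const_mul]
  simp only [h0, ne_eq, OfNat.ofNat_ne_zero, not_false_eq_true, zero_pow, mul_zero,
    sub_zero] at e3 ⊢
  have i1 : Integrable fun z => 1 / 16 * G z ^ 2 := integ hG (by fun_prop) fun z h _ => by simp [h]
  have i2 : Integrable fun z => deriv G z ^ 2 + ((w z - 1 / 8 * (1 + Real.exp (-z))) ^ 2
      - (w' z + 1 / 8 * Real.exp (-z))) * G z ^ 2 :=
    integ hG (by fun_prop) fun z h h' => by simp [h, h']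
  have i3 : Integrable fun z => deriv G z ^ 2 + (w z ^ 2 - w' z) * G z ^ 2 :=
    integ hG (by fun_prop) fun z h h' => by simp [h, h']
  refine le_trans (le_add_of_nonneg_right e3) ?_
  rw [← integral_add i1.integrableOn i2.integrableOn]
  refine setIntegral_mono_on (i1.add i2).integrableOn i3.integrableOn measurableSet_Ioi
    fun z hz => ?_
  have hz0 : 0 ≤ z := le_of_lt hz
  have a1 := hlo z hz0
  have a2 : Real.exp (-z) ≤ 1 := Real.exp_le_one_iff.2 (by linarith)
  have a3 : 0 < Real.exp (-z) := Real.exp_pos _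
  have a4 : -z + 1 ≤ Real.exp (-z) := Real.add_one_le_exp _
  have a5 : 0 ≤ min z 1 := le_min hz0 zero_le_one
  have a6 : 1 ≤ 2 * min z 1 + Real.exp (-z) := by
    rcases le_total z 1 with h | h
    · rw [min_eq_left h]; linarith
    · rw [min_eq_right h]; linarith
  have a7 : 1 / 16 + (w z - 1 / 8 * (1 + Real.exp (-z))) ^ 2 - (w' z + 1 / 8 * Real.exp (-z))
      ≤ w z ^ 2 - w' z := by nlinarith
  nlinarith [mul_le_mul_of_nonneg_right a7 (sq_nonneg (G z))]

/-- the values of the step -/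
def stv (i : ℤ) : ℝ := if i ≤ 0 then 0 else 1

theorem stv_abs (i : ℤ) : |stv i| ≤ 1 := by unfold stv; split_ifs <;> simp

theorem st_nonneg (t : ℝ) : 0 ≤ levD 0 stv t :=
  le_levD (fun i => by unfold stv; split_ifs <;> simp) t

theorem st_le (t : ℝ) : levD 0 stv t ≤ 1 :=
  levD_le (fun i => by unfold stv; split_ifs <;> simp) t

theorem st_left (n : ℕ) (hn : n ≤ 8) {t : ℝ} (h : t ≤ 0) : levD n stv t = 0 := by
  rw [levD_congr_le (g := stv) (g' := fun _ => 0) (B := 0) hn (fun i hi => if_pos hi) (by simpa using h),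
    levD_const]
  simp

theorem st_right (n : ℕ) (hn : n ≤ 8) {t : ℝ} (h : 1 ≤ t) :
    levD n stv t = if n = 0 then 1 else 0 := by
  rw [levD_congr_ge (g := stv) (g' := fun _ => 1) (A := 1) hn (fun i hi => if_neg (by omega))
    (by simpa using h), levD_const]

/-- the logarithmic derivative of the comparison function -/
def ww (ω L z : ℝ) : ℝ := ω * z - (ω * z - 1) * levD 0 stv (z / L - 1) ^ 2

def ww' (ω L z : ℝ) : ℝ := ω - (ω * levD 0 stv (z / L - 1) ^ 2 +
  (ω * z - 1) * (2 * levD 0 stv (z / L - 1) * (levD 1 stv (z / L - 1) / L)))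

theorem hasDerivAt_ww (ω L z : ℝ) : HasDerivAt (ww ω L) (ww' ω L z) z := by
  have h1 : HasDerivAt (fun z => ω * z) ω z := by simpa using (hasDerivAt_id z).const_mul ω
  have h2 : HasDerivAt (fun z => z / L - 1) (1 / L) z :=
    ((hasDerivAt_id z).div_const L).sub_const 1
  have h3 := (hasDerivAt_levD (n := 0) (by omega) stv (z / L - 1)).comp z h2
  have := h1.sub ((h1.sub_const 1).mul (h3.fun_pow 2))
  refine HasDerivAt.congr_deriv this ?_
  simp only [ww', Function.comp, Nat.cast_ofNat, Nat.add_one_sub_one, pow_one, zero_add]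
  ring

theorem cont_ww' (ω L : ℝ) : Continuous (ww' ω L) := by
  have h0 := continuous_levD (n := 0) (by omega) stv
  have h1 := continuous_levD (n := 1) (by omega) stv
  unfold ww'
  fun_prop

theorem ww_lo {ω L z : ℝ} (hω : 1 ≤ ω) (hz : 0 ≤ z) : min z 1 ≤ ww ω L z := by
  have a0 := st_nonneg (z / L - 1)
  have a1 := st_le (z / L - 1)
  have a2 : levD 0 stv (z / L - 1) ^ 2 ≤ 1 := pow_le_one₀ a0 a1
  have a3 := min_le_left z 1
  have a4 := min_le_right z 1
  have a5 : z ≤ ω * z := le_mul_of_one_le_left hz hω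
  unfold ww
  nlinarith [sq_nonneg (levD 0 stv (z / L - 1))]

theorem ww_in {ω L z : ℝ} (hL : 0 < L) (hz : z ≤ L) : ww ω L z = ω * z ∧ ww' ω L z = ω := by
  have h : z / L - 1 ≤ 0 := by rw [sub_nonpos, div_le_one hL]; exact hz
  simp [ww, ww', st_left 0 (by omega) h]

theorem ww_err {ω L z u : ℝ} (hω : 1 ≤ ω) (hL : 2 ≤ L)
    (h1 : z ≤ 2 * L → u = ω ^ 2 * z ^ 2 / 2 - ω / 2) (h2 : L ≤ z → 1 ≤ u) :
    ww ω L z ^ 2 - ww' ω L z ≤ 2 * u + 16 * betaB ^ 2 / L ^ 2 := by
  have hL0 : 0 < L := by linarith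
  have hp : 0 ≤ 16 * betaB ^ 2 / L ^ 2 := by positivity
  rcases le_total z L with h | h
  · obtain ⟨e1, e2⟩ := ww_in (ω := ω) hL0 h
    rw [e1, e2, h1 (by linarith)]
    nlinarith
  rcases le_total (2 * L) z with h' | h'
  · have h3 : 1 ≤ z / L - 1 := by rw [le_sub_iff_add_le, le_div_iff₀ hL0]; linarith
    have := h2 h
    simp only [ww, ww', st_right 0 (by omega) h3, st_right 1 (by omega) h3]
    simp
    linarith
  rw [h1 h']
  have a0 := st_nonneg (z / L - 1)
  have a1 := st_le (z / L - 1)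
  have a2 : |levD 1 stv (z / L - 1) / L| ≤ 2 * betaB / L := by
    rw [abs_div, abs_of_pos hL0]
    gcongr
    simpa using abs_levD_le 1 stv_abs (z / L - 1)
  have a3 : 2 * ω ≤ ω * z := by nlinarith
  unfold ww ww'
  rw [show 16 * betaB ^ 2 / L ^ 2 = 4 * (2 * betaB / L) ^ 2 by ring]
  rw [show ω ^ 2 * z ^ 2 = (ω * z) ^ 2 by ring]
  generalize levD 1 stv (z / L - 1) / L = d at *
  generalize 2 * betaB / L = m at *
  generalize levD 0 stv (z / L - 1) = s at *
  generalize ω * z = a at *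
  have b0 : 0 ≤ m := (abs_nonneg _).trans a2
  have b1 : d ≤ m := (abs_le.1 a2).2
  have b2 : s ^ 2 ≤ 1 := pow_le_one₀ a0 a1
  have b3 : (a - 1) * (2 * s * d) ≤ 2 * (a * s) * m := by
    have : (a - 1) * (2 * s * d) ≤ (a - 1) * (2 * s * m) := by
      apply mul_le_mul_of_nonneg_left _ (by linarith)
      exact mul_le_mul_of_nonneg_left b1 (by linarith)
    nlinarith [mul_nonneg a0 b0]
  have b4 : (a - 1) * s ^ 2 * a ≤ (a - 1) * s ^ 2 * (2 * a - (a - 1) * s ^ 2) := by
    apply mul_le_mul_of_nonneg_left _ (mul_nonneg (by linarith) (sq_nonneg _))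
    nlinarith [sq_nonneg s]
  have b5 : a ^ 2 / 4 * s ^ 2 ≤ ((a - 1) * a - ω) * s ^ 2 := by
    apply mul_le_mul_of_nonneg_right _ (sq_nonneg _)
    nlinarith
  nlinarith [sq_nonneg (a * s / 2 - 2 * m)]

/-- the Gaussian -/
def gs (ω z : ℝ) : ℝ := Real.exp (-(ω * z ^ 2 / 2))

theorem hasDerivAt_gs (ω z : ℝ) : HasDerivAt (gs ω) (-(ω * z * gs ω z)) z := by
  have := ((((hasDerivAt_pow 2 z).const_mul ω).div_const 2).neg).exp
  refine HasDerivAt.congr_deriv this ?_
  simp only [gs, Pi.neg_apply, Nat.cast_ofNat, Nat.add_one_sub_one, pow_one]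
  ring

theorem contDiff_gs (ω : ℝ) : ContDiff ℝ 1 (gs ω) := by unfold gs; fun_prop

theorem gs_pos (ω z : ℝ) : 0 < gs ω z := Real.exp_pos _

theorem half_pow (n : ℕ) : Real.exp (-(n : ℝ)) ≤ (1 / 2) ^ n := by
  have h : Real.exp (-1) ≤ 1 / 2 := by
    rw [Real.exp_neg, ← one_div]
    exact one_div_le_one_div_of_le two_pos (by linarith [Real.add_one_le_exp 1])
  calc Real.exp (-(n : ℝ)) = Real.exp (-1) ^ n := by rw [← Real.exp_nat_mul]; simp
    _ ≤ _ := pow_le_pow_left₀ (Real.exp_pos _).le h n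

theorem gs_sq_le {ω z : ℝ} {n : ℕ} (hω : 1 ≤ ω) (hz : (n : ℝ) ≤ z) :
    gs ω z ^ 2 ≤ 3 * (1 / 2) ^ n * Real.exp (-z) := by
  have h1 : gs ω z ^ 2 ≤ Real.exp 1 * Real.exp (-(n : ℝ)) * Real.exp (-z) := by
    rw [gs, ← Real.exp_nat_mul, ← Real.exp_add, ← Real.exp_add, Real.exp_le_exp]
    push_cast
    nlinarith [sq_nonneg (z - 1), mul_le_mul_of_nonneg_right hω (sq_nonneg z)]
  refine h1.trans ?_
  gcongr
  · linarith [Real.exp_one_lt_d9]
  · exact half_pow n

/-- the quadratic form on the half line -/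
def Qp (u g : ℝ → ℝ) : ℝ := ∫ z in Ioi (0 : ℝ), ((1 / 2) * deriv g z ^ 2 + u z * g z ^ 2)

theorem integ_Q {u : ℝ → ℝ} (hu : Measurable u) (hb : ∃ M, ∀ z, |u z| ≤ M) (hg : C1c g) :
    Integrable fun z => (1 / 2) * deriv g z ^ 2 + u z * g z ^ 2 := by
  obtain ⟨M, hM⟩ := hb
  have hc := hg.1.continuous
  have hd := cont_deriv hg
  exact (integ hg (by fun_prop) fun z _ h => by simp [h]).add
    ((integ hg (F := fun z => g z ^ 2) (by fun_prop) fun z h _ => by simp [h]).bdd_mul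
      hu.aestronglyMeasurable (Filter.Eventually.of_forall hM))

theorem half_low {ω L : ℝ} {u : ℝ → ℝ} (hω : 1 ≤ ω) (hL : 2 ≤ L) (hu : Measurable u)
    (hb : ∃ M, ∀ z, |u z| ≤ M) (h1 : ∀ z, |z| ≤ 2 * L → u z = ω ^ 2 * z ^ 2 / 2 - ω / 2)
    (h2 : ∀ z, L ≤ |z| → 1 ≤ u z) (hg : C1c g) :
    ∫ z in Ioi (0 : ℝ), (deriv g z + ww ω L z * g z) ^ 2 ≤
      2 * Qp u g + 16 * betaB ^ 2 / L ^ 2 * ∫ z in Ioi (0 : ℝ), g z ^ 2 := by
  have hc := hg.1.continuous
  have hd := cont_deriv hg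
  have hw : Continuous (ww ω L) :=
    continuous_iff_continuousAt.2 fun z => (hasDerivAt_ww ω L z).continuousAt
  have hw' := cont_ww' ω L
  have i1 := (integ_Q hu hb hg).const_mul 2
  have i2 : Integrable fun z => 16 * betaB ^ 2 / L ^ 2 * g z ^ 2 :=
    integ hg (by fun_prop) fun z h _ => by simp [h]
  rw [riccati (hasDerivAt_ww ω L) hw' hg, (ww_in (by linarith) (by linarith)).1, Qp,
    ← integral_const_mul, ← integral_const_mul, ← integral_add i1.integrableOn i2.integrableOn]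
  simp only [mul_zero, zero_mul, sub_zero]
  refine setIntegral_mono_on (integ hg (by fun_prop) fun z h h' => by simp [h, h']).integrableOn
    (i1.add i2).integrableOn measurableSet_Ioi fun z hz => ?_
  have hz' : |z| = z := abs_of_pos hz
  have := ww_err (z := z) (u := u z) hω hL (fun h => h1 z (by rwa [hz']))
    (fun h => h2 z (by rwa [hz']))
  nlinarith [mul_le_mul_of_nonneg_right this (sq_nonneg (g z))]

theorem half_gap {ω L M : ℝ} {n : ℕ} {u χ : ℝ → ℝ} (hω : 1 ≤ ω) (hL : 2 ≤ L) (hu : Measurable u)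
    (hb : ∃ M, ∀ z, |u z| ≤ M) (h1 : ∀ z, |z| ≤ 2 * L → u z = ω ^ 2 * z ^ 2 / 2 - ω / 2)
    (h2 : ∀ z, L ≤ |z| → 1 ≤ u z) (hg : C1c g) (hχ : C1c χ) (c0 : χ 0 = 1)
    (c1 : ∀ z, χ z ≠ 0 → z ≤ L) (c2 : ∀ z, |deriv χ z| ≤ M)
    (c3 : ∀ z, 0 < z → deriv χ z ≠ 0 → (n : ℝ) ≤ z) :
    1 / 16 * ∫ z in Ioi (0 : ℝ), (g z - g 0 * (gs ω z * χ z)) ^ 2 ≤
      4 * Qp u g + 32 * betaB ^ 2 / L ^ 2 * (∫ z in Ioi (0 : ℝ), g z ^ 2) +
        6 * M ^ 2 * (1 / 2) ^ n * g 0 ^ 2 := by
  have hL0 : 0 < L := by linarith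
  have hG : C1c fun z => g z - g 0 * (gs ω z * χ z) :=
    ⟨hg.1.sub (contDiff_const.mul ((contDiff_gs ω).mul hχ.1)),
      hg.2.sub ((hχ.2.mul_left (f := gs ω)).mul_left (f := fun _ => g 0))⟩
  have hc := hg.1.continuous
  have hd := cont_deriv hg
  have hw : Continuous (ww ω L) :=
    continuous_iff_continuousAt.2 fun z => (hasDerivAt_ww ω L z).continuousAt
  have e1 := hardy (hasDerivAt_ww ω L) (cont_ww' ω L) (fun z hz => ww_lo hω hz) hG
    (by simp [c0, gs])
  have e2 := half_low hω hL hu hb h1 h2 hg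
  have i1 : Integrable fun z => 2 * (deriv g z + ww ω L z * g z) ^ 2 :=
    integ hg (by fun_prop) fun z h h' => by simp [h, h']
  have i2 : IntegrableOn (fun z : ℝ => 6 * M ^ 2 * (1 / 2) ^ n * g 0 ^ 2 * Real.exp (-z))
      (Ioi 0) := (integrableOn_exp_neg_Ioi 0).const_mul _
  have e3 : ∫ z in Ioi (0 : ℝ), (deriv (fun z => g z - g 0 * (gs ω z * χ z)) z +
      ww ω L z * (g z - g 0 * (gs ω z * χ z))) ^ 2 ≤
      ∫ z in Ioi (0 : ℝ), (2 * (deriv g z + ww ω L z * g z) ^ 2 +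
        6 * M ^ 2 * (1 / 2) ^ n * g 0 ^ 2 * Real.exp (-z)) := by
    have hc' := hG.1.continuous
    have hd' := cont_deriv hG
    refine setIntegral_mono_on (integ hG (by fun_prop) fun z h h' => by
      simp only [h, h']; simp).integrableOn (i1.integrableOn.add i2) measurableSet_Ioi
      fun z hz => ?_
    have d := ((hda hg z).fun_sub ((((hasDerivAt_gs ω z).fun_mul (hda hχ z))).const_mul (g 0))).deriv
    rw [d]
    have k1 : ww ω L z * χ z = ω * z * χ z := by
      by_cases h : χ z = 0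
      · simp [h]
      · rw [(ww_in hL0 (c1 z h)).1]
    have k2 : (gs ω z * deriv χ z) ^ 2 ≤ 3 * M ^ 2 * (1 / 2) ^ n * Real.exp (-z) := by
      by_cases h : deriv χ z = 0
      · rw [h]; simp only [mul_zero, ne_eq, OfNat.ofNat_ne_zero, not_false_eq_true, zero_pow]
        positivity
      · have a1 := gs_sq_le hω (c3 z hz h)
        have a2 : deriv χ z ^ 2 ≤ M ^ 2 := by
          rw [← sq_abs]; exact pow_le_pow_left₀ (abs_nonneg _) (c2 z) 2
        rw [mul_pow]
        calc _ ≤ (3 * (1 / 2) ^ n * Real.exp (-z)) * M ^ 2 := by gcongr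
          _ = _ := by ring
    have k3 : deriv g z - g 0 * (-(ω * z * gs ω z) * χ z + gs ω z * deriv χ z) +
        ww ω L z * (g z - g 0 * (gs ω z * χ z)) =
        (deriv g z + ww ω L z * g z) - g 0 * (gs ω z * deriv χ z) := by
      linear_combination (-(g 0 * gs ω z)) * k1
    rw [k3]
    nlinarith [sq_nonneg ((deriv g z + ww ω L z * g z) + g 0 * (gs ω z * deriv χ z)),
      mul_le_mul_of_nonneg_left k2 (sq_nonneg (g 0))]
  rw [integral_add i1.integrableOn i2, integral_const_mul, integral_const_mul,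
    integral_exp_neg_Ioi_zero] at e3
  have e4 : 32 * betaB ^ 2 / L ^ 2 = 2 * (16 * betaB ^ 2 / L ^ 2) := by ring
  rw [e4]
  linarith

end

end Vale.Agent.P370Z.ZOSC
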